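import Mathlib

/-!
# P078, one colour at one step: inequalities and identities in numbers

The numerical inequalities behind the drift and the algebraic identity for the second variation.
-/

noncomputable section

namespace Vale.Agent.P078.Tr

namespace Dr

universe u

/-- AM-GM for the form: `Q - cross + κ |b|² ≥ 0` in numbers. -/
theorem num_form {P Γ xt V l b : ℝ} (hP : 0 ≤ P) (hP1 : P ≤ 1 / 480) (hΓ : 0 < Γ)
    (hV : 0 ≤ V) (hxt : xt ≤ 51 / 50)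
    (hcs : Γ ^ 2 * l ^ 2 ≤ xt * V) :
    (1 + 408 * P) * P * (b * l) ≤
      (P + 204 * (P * P)) * (Γ⁻¹ * Γ⁻¹) * V + 2 / 3 * P * b ^ 2 := by
  set z := Γ⁻¹ * Γ⁻¹ * V with hz
  have hl2 : l ^ 2 ≤ 51 / 50 * z := by
    have h1 : Γ ^ 2 * l ^ 2 ≤ 51 / 50 * V := hcs.trans (mul_le_mul_of_nonneg_right hxt hV)
    calc l ^ 2 = Γ⁻¹ * Γ⁻¹ * (Γ ^ 2 * l ^ 2) := by field_simp
      _ ≤ Γ⁻¹ * Γ⁻¹ * (51 / 50 * V) :=
          mul_le_mul_of_nonneg_left h1 (mul_nonneg (inv_nonneg.2 hΓ.le) (inv_nonneg.2 hΓ.le))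
      _ = 51 / 50 * z := by rw [hz]; ring
  have hk : (1 + 408 * P) ^ 2 * (51 / 50) ≤ 8 / 3 * (1 + 204 * P) := by nlinarith
  have key : (1 + 408 * P) * (b * l) ≤ (1 + 204 * P) * z + 2 / 3 * b ^ 2 := by
    have h2 : 0 ≤ (2 * (2 / 3) * b - (1 + 408 * P) * l) ^ 2 := sq_nonneg _
    have h3 : (1 + 408 * P) ^ 2 * l ^ 2 ≤ (1 + 408 * P) ^ 2 * (51 / 50 * z) :=
      mul_le_mul_of_nonneg_left hl2 (sq_nonneg _)
    have h4 : (1 + 408 * P) ^ 2 * (51 / 50) * z ≤ 8 / 3 * (1 + 204 * P) * z := by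
      refine mul_le_mul_of_nonneg_right hk ?_
      rw [hz]
      positivity
    nlinarith
  calc (1 + 408 * P) * P * (b * l) = P * ((1 + 408 * P) * (b * l)) := by ring
    _ ≤ P * ((1 + 204 * P) * z + 2 / 3 * b ^ 2) := mul_le_mul_of_nonneg_left key hP
    _ = _ := by rw [hz]; ring

/-- The numerical inequality at a live point. -/
theorem num_drift {A Γf Γt F D ω M Wf Wt : ℝ} (hω : 0 ≤ ω) (hD : 0 ≤ D)
    (hf : 0 < Γf) (ht : 0 < Γt) (hA : A⁻¹ ≤ 1 / 480) (hA0 : 0 < A⁻¹)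
    (hF : F = 1 - (A - Γf⁻¹) - (A - Γt⁻¹)) (hF0 : 0 ≤ F) (hxf : -(1 / 100) ≤ A - Γf⁻¹)
    (hxt : -(1 / 100) ≤ A - Γt⁻¹) (hM : M ≤ max (max Γf Γt) A⁻¹)
    (hWf : Γf ^ 2 * (A * A * D * (M - Γf)) ≤ Wf) (hWt : Γt ^ 2 * (A * A * D * (M - Γt)) ≤ Wt) :
    ω * (D * (A⁻¹ * A⁻¹) * F) ≤
      ω * F * ((1 + 408 * A⁻¹) * A⁻¹ + 204 * (A⁻¹ * A⁻¹)) * (D * (1 - 16 * (A⁻¹ * F))) -
      ω * F * (1 + 408 * A⁻¹) * (A⁻¹ * A⁻¹) * (D * (A * A) * M) -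
      2 * (ω * (2 / 3) * A⁻¹ * (D * (16 * (A⁻¹ * F)))) +
      ω * (A⁻¹ + 204 * (A⁻¹ * A⁻¹)) *
        ((Γf⁻¹ * Γf⁻¹ * Wf - D * (A * A) * M + Γf⁻¹ * Γf⁻¹ * (Γf * Γf * Γf * (A * A * D))) +
        (Γt⁻¹ * Γt⁻¹ * Wt - D * (A * A) * M + Γt⁻¹ * Γt⁻¹ * (Γt * Γt * Γt * (A * A * D)))) := by
  set P := A⁻¹ with hP
  have hA1 : 0 < A := inv_pos.1 hA0
  have hAP : A * P = 1 := mul_inv_cancel₀ hA1.ne'
  have side : ∀ {Γ W : ℝ}, 0 < Γ → Γ ^ 2 * (A * A * D * (M - Γ)) ≤ W →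
      0 ≤ Γ⁻¹ * Γ⁻¹ * W - D * (A * A) * M + Γ⁻¹ * Γ⁻¹ * (Γ * Γ * Γ * (A * A * D)) := by
    intro Γ W hΓ hW
    have h1 : Γ⁻¹ * Γ⁻¹ * (Γ ^ 2 * (A * A * D * (M - Γ))) ≤ Γ⁻¹ * Γ⁻¹ * W :=
      mul_le_mul_of_nonneg_left hW (mul_nonneg (inv_nonneg.2 hΓ.le) (inv_nonneg.2 hΓ.le))
    have e1 : Γ⁻¹ * Γ⁻¹ * (Γ ^ 2 * (A * A * D * (M - Γ))) = A * A * D * (M - Γ) := by
      field_simp
    have e2 : Γ⁻¹ * Γ⁻¹ * (Γ * Γ * Γ * (A * A * D)) = Γ * (A * A * D) := by field_simp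
    rw [e1] at h1
    rw [e2]
    linarith
  have hg : ∀ {Γ : ℝ}, 0 < Γ → A - Γ⁻¹ ≤ 101 / 100 → Γ ≤ P + 102 / 100 * (P * P) := by
    intro Γ hΓ hx
    have h1 : 1 ≤ (P + 102 / 100 * (P * P)) * (A - 101 / 100) := by
      have : (P + 102 / 100 * (P * P)) * (A - 101 / 100) =
          A * P + P * (102 / 100 * (A * P) - 101 / 100 - 10302 / 10000 * P) := by ring
      rw [this, hAP]
      nlinarith
    have h2 : A - 101 / 100 ≤ Γ⁻¹ := by linarith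
    have h3 : (A - 101 / 100) * Γ ≤ 1 := by
      have := mul_le_mul_of_nonneg_right h2 hΓ.le
      rwa [inv_mul_cancel₀ hΓ.ne'] at this
    have h4 : 0 ≤ P + 102 / 100 * (P * P) := by positivity
    nlinarith [mul_le_mul_of_nonneg_left h3 h4, mul_le_mul_of_nonneg_right h1 hΓ.le]
  have hMle : M ≤ P + 102 / 100 * (P * P) := by
    refine hM.trans (max_le (max_le (hg hf (by linarith)) (hg ht (by linarith))) ?_)
    nlinarith
  have hFle : F ≤ 102 / 100 := by linarith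
  have e3 : ω * F * (1 + 408 * P) * (P * P) * (D * (A * A) * M) =
      ω * F * (1 + 408 * P) * D * M * ((A * P) * (A * P)) := by ring
  rw [e3, hAP, one_mul, mul_one]
  have h5 : ω * F * (1 + 408 * P) * D * M ≤
      ω * F * (1 + 408 * P) * D * (P + 102 / 100 * (P * P)) :=
    mul_le_mul_of_nonneg_left hMle (by positivity)
  have h6 : 0 ≤ ω * F * D * (P * P) *
      (-1 + ((-(102 / 100) * (1 + 408 * P)) + 204 - 16 * F * ((1 + 408 * P) + 204 * P)) -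
        64 / 3) := by
    refine mul_nonneg (by positivity) ?_
    nlinarith
  have h7 : 0 ≤ ω * (P + 204 * (P * P)) *
      ((Γf⁻¹ * Γf⁻¹ * Wf - D * (A * A) * M + Γf⁻¹ * Γf⁻¹ * (Γf * Γf * Γf * (A * A * D))) +
        (Γt⁻¹ * Γt⁻¹ * Wt - D * (A * A) * M + Γt⁻¹ * Γt⁻¹ * (Γt * Γt * Γt * (A * A * D)))) :=
    mul_nonneg (by positivity) (add_nonneg (side hf hWf) (side ht hWt))
  nlinarith [h5, h6, h7]

theorem wsum_identity {α : Type*} [CommRing α] {n : ℕ} (w e fz pot pot' p gf gt mu Wmf Wmt : α)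
    (f Qf Qt Wf Wt Lf Lt : Fin n → α) (B K : α) :
    w * (e * (fz * (pot' * (-(mu * (p * p)) + p * ∑ j, f j * f j) + B * (p * p * ∑ j, f j * f j)) -
        pot * ((mu + gf * gf * (-Wmf + ∑ j, Qf j) - gf * gf * gf * ∑ j, Wf j * Wf j) +
          (mu + gt * gt * (-Wmt + ∑ j, Qt j) - gt * gt * gt * ∑ j, Wt j * Wt j)) +
        pot' * p * ∑ j, f j * (Lf j + Lt j))) =
      w * (e * (fz * (pot' * p + B * (p * p)))) * ∑ j, f j * f j -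
        w * (e * (fz * pot' * (p * p))) * mu +
        ((w * e * pot * (gf * gf) * Wmf - w * e * pot * mu -
          ∑ j, (w * e * pot * (gf * gf) * (Qf j - gf * (Wf j * Wf j)) -
            w * e * (pot' * p) * (f j * Lf j) + K * (f j * f j))) +
        (w * e * pot * (gt * gt) * Wmt - w * e * pot * mu -
          ∑ j, (w * e * pot * (gt * gt) * (Qt j - gt * (Wt j * Wt j)) -
            w * e * (pot' * p) * (f j * Lt j) + K * (f j * f j)))) +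
        (K * ∑ j, f j * f j + K * ∑ j, f j * f j) := by
  simp only [Finset.sum_add_distrib, Finset.sum_sub_distrib, mul_add, mul_sub, Finset.mul_sum,
    ← mul_assoc, add_mul]
  ring_nf

end Dr

end Vale.Agent.P078.Tr
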