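import Vale.Agent.P078.Tr.Char

/-!
# P078, one colour at one step: characters of the MASA and elementary facts on trace and expectation
-/

open WeakDual
open scoped ComplexOrder InnerProductSpace

noncomputable section

namespace Vale.Agent.P078.Tr

namespace Dr

universe u

variable {H : Type u} [NormedAddCommGroup H] [InnerProductSpace ℂ H] [CompleteSpace H]
variable (S : Tracial H)

/-- The characters of the MASA. -/
abbrev Chars : Type u := S.Chi

/-- A character evaluated at an operator (zero off the MASA). -/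
def ev (φ : Chars S) (a : Op H) : ℂ := S.evC φ a

variable {S}

theorem ev_eq (φ : Chars S) {a : Op H} (ha : a ∈ S.A) : ev S φ a = φ ⟨a, ha⟩ := Tracial.evC_of_mem ha

theorem ev_add (φ : Chars S) {a b : Op H} (ha : a ∈ S.A) (hb : b ∈ S.A) :
    ev S φ (a + b) = ev S φ a + ev S φ b := by
  rw [ev_eq φ ha, ev_eq φ hb, ev_eq φ (add_mem ha hb), ← map_add]
  rfl

theorem ev_sub (φ : Chars S) {a b : Op H} (ha : a ∈ S.A) (hb : b ∈ S.A) :
    ev S φ (a - b) = ev S φ a - ev S φ b := by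
  rw [ev_eq φ ha, ev_eq φ hb, ev_eq φ (sub_mem ha hb), ← map_sub]
  rfl

theorem ev_neg (φ : Chars S) {a : Op H} (ha : a ∈ S.A) : ev S φ (-a) = -ev S φ a := by
  rw [ev_eq φ ha, ev_eq φ (neg_mem ha), ← map_neg]
  rfl

theorem ev_mul (φ : Chars S) {a b : Op H} (ha : a ∈ S.A) (hb : b ∈ S.A) :
    ev S φ (a * b) = ev S φ a * ev S φ b := by
  rw [ev_eq φ ha, ev_eq φ hb, ev_eq φ (mul_mem ha hb), ← map_mul]
  rfl

theorem ev_one (φ : Chars S) : ev S φ 1 = 1 := by
  rw [ev_eq φ (one_mem _)]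
  exact map_one φ

theorem ev_zero (φ : Chars S) : ev S φ 0 = 0 := by
  rw [ev_eq φ (zero_mem _)]
  exact map_zero φ

theorem ev_star (φ : Chars S) {a : Op H} (ha : a ∈ S.A) :
    ev S φ (star a) = starRingEnd ℂ (ev S φ a) := by
  rw [ev_eq φ ha, ev_eq φ (star_mem ha)]
  exact map_star φ (⟨a, ha⟩ : S.Alg)

theorem smul_memA (r : ℝ) {a : Op H} (ha : a ∈ S.A) : r • a ∈ S.A := by
  rw [← algebraMap_smul ℂ r a]
  exact SMulMemClass.smul_mem _ ha

theorem smul_memM (r : ℝ) {a : Op H} (ha : a ∈ S.M) : r • a ∈ S.M := by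
  rw [← algebraMap_smul ℂ r a]
  exact S.M.toStarSubalgebra.smul_mem ha _

theorem ev_smul (φ : Chars S) (r : ℝ) {a : Op H} (ha : a ∈ S.A) :
    ev S φ (r • a) = (r : ℂ) * ev S φ a := by
  rw [ev_eq φ ha, ev_eq φ (smul_memA r ha), ← smul_eq_mul, ← map_smul φ]
  exact congrArg _ (Subtype.ext (algebraMap_smul ℂ r a).symm)

theorem ev_sum (φ : Chars S) {ι : Type*} (s : Finset ι) (a : ι → Op H)
    (ha : ∀ i ∈ s, a i ∈ S.A) : ev S φ (∑ i ∈ s, a i) = ∑ i ∈ s, ev S φ (a i) := by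
  classical
  induction s using Finset.induction_on with
  | empty => simp [ev_zero]
  | insert i t hi ih =>
    rw [Finset.sum_insert hi, Finset.sum_insert hi, ev_add φ (ha i (Finset.mem_insert_self i t))
      (sum_mem fun j hj => ha j (Finset.mem_insert_of_mem hj)),
      ih fun j hj => ha j (Finset.mem_insert_of_mem hj)]

theorem ev_im (φ : Chars S) {a : Op H} (ha : a ∈ S.A) (h : IsSelfAdjoint a) :
    (ev S φ a).im = 0 := by
  have h1 := ev_star φ ha
  rw [h.star_eq] at h1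
  have h2 := congrArg Complex.im h1
  rw [Complex.conj_im] at h2
  linarith

theorem ev_real (φ : Chars S) {a : Op H} (ha : a ∈ S.A) (h : IsSelfAdjoint a) :
    ev S φ a = ((ev S φ a).re : ℂ) :=
  Complex.ext rfl (by simpa using ev_im φ ha h)

/-- An operator of the MASA is non-negative iff all characters are. -/
theorem nonneg_iff {a : Op H} (ha : a ∈ S.A) : 0 ≤ a ↔ ∀ φ : Chars S, 0 ≤ ev S φ a := by
  set a' : S.Alg := ⟨a, ha⟩
  have hsp : spectrum ℂ a = spectrum ℂ a' := (S.A.spectrum_eq (a := a')).symm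
  constructor
  · intro h φ
    rw [ev_eq φ ha]
    exact spectrum_nonneg_of_nonneg h
      (hsp ▸ WeakDual.CharacterSpace.mem_spectrum_iff_exists.2 ⟨φ, rfl⟩)
  · intro h
    have hsa : IsSelfAdjoint a := by
      have : IsSelfAdjoint a' := by
        rw [IsSelfAdjoint]
        refine (gelfandTransform_bijective S.Alg).injective ?_
        ext φ
        change φ (star a') = φ a'
        rw [map_star]
        have := h φ
        rw [ev_eq φ ha] at this
        exact Complex.conj_eq_iff_im.2 (Complex.nonneg_iff.1 this).2.symm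
      exact congrArg Subtype.val this
    refine (StarOrderedRing.nonneg_iff_spectrum_nonneg (R := ℂ) a hsa.isStarNormal).2 ?_
    intro z hz
    rw [hsp] at hz
    obtain ⟨φ, rfl⟩ := WeakDual.CharacterSpace.mem_spectrum_iff_exists.1 hz
    have := h φ
    rwa [ev_eq φ ha] at this

theorem re_nonneg {a : Op H} (ha : a ∈ S.A) (h : 0 ≤ a) (φ : Chars S) : 0 ≤ (ev S φ a).re :=
  (Complex.nonneg_iff.1 ((nonneg_iff ha).1 h φ)).1

theorem sa_of_nonneg {a : Op H} (h : 0 ≤ a) : IsSelfAdjoint a := IsSelfAdjoint.of_nonneg h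

theorem nonneg_of_re {a : Op H} (ha : a ∈ S.A) (hsa : IsSelfAdjoint a)
    (h : ∀ φ : Chars S, 0 ≤ (ev S φ a).re) : 0 ≤ a :=
  (nonneg_iff ha).2 fun φ => Complex.nonneg_iff.2 ⟨h φ, (ev_im φ ha hsa).symm⟩

theorem le_of_re {a b : Op H} (ha : a ∈ S.A) (hb : b ∈ S.A) (has : IsSelfAdjoint a)
    (hbs : IsSelfAdjoint b) (h : ∀ φ : Chars S, (ev S φ a).re ≤ (ev S φ b).re) : a ≤ b := by
  rw [← sub_nonneg]
  refine nonneg_of_re (sub_mem hb ha) (hbs.sub has) fun φ => ?_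
  rw [ev_sub φ hb ha, Complex.sub_re]
  linarith [h φ]

theorem re_le {a b : Op H} (ha : a ∈ S.A) (hb : b ∈ S.A) (h : a ≤ b) (φ : Chars S) :
    (ev S φ a).re ≤ (ev S φ b).re := by
  have := re_nonneg (sub_mem hb ha) (sub_nonneg.2 h) φ
  rw [ev_sub φ hb ha, Complex.sub_re] at this
  linarith

theorem eq_of_ev {a b : Op H} (ha : a ∈ S.A) (hb : b ∈ S.A)
    (h : ∀ φ : Chars S, ev S φ a = ev S φ b) : a = b := by
  refine congrArg Subtype.val (a₁ := (⟨a, ha⟩ : S.Alg)) (a₂ := ⟨b, hb⟩)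
    ((gelfandTransform_bijective S.Alg).injective ?_)
  ext φ
  simpa [ev_eq φ ha, ev_eq φ hb] using h φ

theorem sqrt_mem {a : Op H} (ha : a ∈ S.A) (h : 0 ≤ a) :
    CFC.sqrt a ∈ S.A ∧ ∀ φ : Chars S, 0 ≤ (ev S φ (CFC.sqrt a)).re := by
  obtain ⟨s, hs⟩ : ∃ s : C(Chars S, ℂ), ∀ φ : Chars S, s φ = (Real.sqrt (ev S φ a).re : ℂ) := by
    refine ⟨⟨fun φ => (Real.sqrt (ev S φ a).re : ℂ), ?_⟩, fun φ => rfl⟩
    have he : (fun φ : Chars S => ev S φ a) = fun φ => gelfandTransform ℂ S.Alg ⟨a, ha⟩ φ :=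
      funext fun φ => ev_eq φ ha
    have : Continuous fun φ : Chars S => ev S φ a := by
      rw [he]
      exact (gelfandTransform ℂ S.Alg ⟨a, ha⟩).continuous
    fun_prop
  obtain ⟨b, hb⟩ := (gelfandTransform_bijective S.Alg).surjective s
  have hev : ∀ φ : Chars S, ev S φ (b : Op H) = (Real.sqrt (ev S φ a).re : ℂ) := fun φ => by
    rw [ev_eq φ b.2, ← hs φ, ← hb]
    rfl
  have hbn : 0 ≤ (b : Op H) := (nonneg_iff b.2).2 fun φ => by
    rw [hev φ]
    exact Complex.zero_le_real.2 (Real.sqrt_nonneg _)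
  have hbb : (b : Op H) * b = a := eq_of_ev (mul_mem b.2 b.2) ha fun φ => by
    rw [ev_mul φ b.2 b.2, hev φ, ← Complex.ofReal_mul, Real.mul_self_sqrt (re_nonneg ha h φ),
      ← ev_real φ ha (sa_of_nonneg h)]
  have hbe : CFC.sqrt a = b := CFC.sqrt_unique hbb hbn
  rw [hbe]
  exact ⟨b.2, fun φ => by rw [hev φ, Complex.ofReal_re]; exact Real.sqrt_nonneg _⟩

theorem sqrt_mul_self_re {a : Op H} (ha : a ∈ S.A) (h : 0 ≤ a) (φ : Chars S) :
    (ev S φ (CFC.sqrt a)).re ^ 2 = (ev S φ a).re := by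
  have hs := (sqrt_mem ha h).1
  have h1 := congrArg (ev S φ) (CFC.sqrt_mul_sqrt_self a h)
  rw [ev_mul φ hs hs, ev_real φ hs (sa_of_nonneg (CFC.sqrt_nonneg a))] at h1
  have h2 := congrArg Complex.re h1
  rw [← Complex.ofReal_mul, Complex.ofReal_re] at h2
  rw [pow_two, h2]

theorem inverse_mem {a : Op H} (ha : a ∈ S.A) (hu : IsUnit a) :
    Ring.inverse a ∈ S.A ∧ ∀ φ : Chars S, ev S φ (Ring.inverse a) * ev S φ a = 1 := by
  obtain ⟨v, hv⟩ := (S.A.coe_isUnit (a := ⟨a, ha⟩)).1 hu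
  have h1 : ((↑v⁻¹ : S.A) : Op H) * a = 1 := by
    have := congrArg Subtype.val v.inv_mul
    simpa [hv] using this
  have hinv : Ring.inverse a = ((↑v⁻¹ : S.A) : Op H) :=
    (left_inv_eq_right_inv h1 (Ring.mul_inverse_cancel a hu)).symm
  rw [hinv]
  exact ⟨(↑v⁻¹ : S.A).2, fun φ => by rw [← ev_mul φ (↑v⁻¹ : S.A).2 ha, h1, ev_one]⟩

theorem isUnit_of_ev {a : Op H} (ha : a ∈ S.A) (h : ∀ φ : Chars S, ev S φ a ≠ 0) : IsUnit a := by
  refine (S.A.coe_isUnit (a := ⟨a, ha⟩)).2 ?_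
  by_contra hu
  have h0 : (0 : ℂ) ∈ spectrum ℂ (⟨a, ha⟩ : S.Alg) := (spectrum.zero_mem_iff ℂ).2 hu
  obtain ⟨φ, hφ⟩ := WeakDual.CharacterSpace.mem_spectrum_iff_exists.1 h0
  exact h φ (by rw [ev_eq φ ha]; exact hφ)

/-! ### The trace -/

theorem tau_summable (x : Op H) :
    Summable fun k => ⟪S.vec k, x (S.vec k)⟫_ℂ := by
  refine Summable.of_norm_bounded (g := fun k => ‖x‖ * ‖S.vec k‖ ^ 2)
    (S.norm_one.summable.mul_left _) fun k => ?_
  calc ‖⟪S.vec k, x (S.vec k)⟫_ℂ‖ ≤ ‖S.vec k‖ * ‖x (S.vec k)‖ := norm_inner_le_norm _ _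
    _ ≤ ‖S.vec k‖ * (‖x‖ * ‖S.vec k‖) := by gcongr; exact x.le_opNorm _
    _ = ‖x‖ * ‖S.vec k‖ ^ 2 := by ring

theorem tr_add (x y : Op H) : S.tr (x + y) = S.tr x + S.tr y := by
  simp only [Tracial.tr, Tracial.tau, add_apply, inner_add_right]
  rw [(tau_summable x).tsum_add (tau_summable y), Complex.add_re]

theorem tr_zero : S.tr 0 = 0 := by simp [Tracial.tr, Tracial.tau]

theorem tr_neg (x : Op H) : S.tr (-x) = -S.tr x := by
  have := tr_add (S := S) x (-x)
  rw [add_neg_cancel, tr_zero] at this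
  linarith

theorem tr_sub (x y : Op H) : S.tr (x - y) = S.tr x - S.tr y := by
  rw [sub_eq_add_neg, tr_add, tr_neg, sub_eq_add_neg]

theorem tr_smul (r : ℝ) (x : Op H) : S.tr (r • x) = r * S.tr x := by
  simp only [Tracial.tr, Tracial.tau, smul_apply]
  simp_rw [← algebraMap_smul ℂ r (x (S.vec _)), inner_smul_right]
  rw [tsum_mul_left]
  simp

theorem tr_sum {ι : Type*} (s : Finset ι) (x : ι → Op H) :
    S.tr (∑ i ∈ s, x i) = ∑ i ∈ s, S.tr (x i) := by
  classical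
  induction s using Finset.induction_on with
  | empty => simp [tr_zero]
  | insert i t hi ih => rw [Finset.sum_insert hi, Finset.sum_insert hi, tr_add, ih]

theorem tr_nonneg (hB : Basics S) {x : Op H} (hx : x ∈ S.M) (h : 0 ≤ x) : 0 ≤ S.tr x :=
  (Complex.nonneg_iff.1 (hB.tau_nonneg x hx h)).1

theorem tr_mono (hB : Basics S) {x y : Op H} (hx : x ∈ S.M) (hy : y ∈ S.M) (h : x ≤ y) :
    S.tr x ≤ S.tr y := by
  have := tr_nonneg hB (sub_mem hy hx) (sub_nonneg.2 h)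
  rw [tr_sub] at this
  linarith

theorem tr_comm (hB : Basics S) {x y : Op H} (hx : x ∈ S.M) (hy : y ∈ S.M) :
    S.tr (x * y) = S.tr (y * x) := congrArg Complex.re (hB.tau_comm x hx y hy)

theorem tr_E (hB : Basics S) {x b : Op H} (hx : x ∈ S.M) (hb : b ∈ S.A) :
    S.tr (b * S.E x) = S.tr (b * x) := congrArg Complex.re (hB.E_tau x hx b hb)

theorem E_sum (hB : Basics S) {ι : Type*} (s : Finset ι) (x : ι → Op H)
    (hx : ∀ i ∈ s, x i ∈ S.M) : S.E (∑ i ∈ s, x i) = ∑ i ∈ s, S.E (x i) := by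
  classical
  induction s using Finset.induction_on with
  | empty => simpa using hB.E_self 0 (zero_mem _)
  | insert i t hi ih =>
    rw [Finset.sum_insert hi, Finset.sum_insert hi, hB.E_add _ (hx i (Finset.mem_insert_self i t))
      _ (sum_mem fun j hj => hx j (Finset.mem_insert_of_mem hj)),
      ih fun j hj => hx j (Finset.mem_insert_of_mem hj)]

end Dr

end Vale.Agent.P078.Tr
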