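import Vale.Agent.P078.Tr.Drift.Alg

/-!
# P078, one colour at one step: Cauchy-Schwarz for the expectation and pointwise bounds
-/

open WeakDual
open scoped ComplexOrder InnerProductSpace

noncomputable section

namespace Vale.Agent.P078.Tr

namespace Dr

universe u

variable {H : Type u} [NormedAddCommGroup H] [InnerProductSpace ℂ H] [CompleteSpace H]
variable {S : Tracial H}

theorem smulC_memM (c : ℂ) {a : Op H} (ha : a ∈ S.M) : c • a ∈ S.M :=
  S.M.toStarSubalgebra.smul_mem ha c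

theorem smulC_memA (c : ℂ) {a : Op H} (ha : a ∈ S.A) : c • a ∈ S.A :=
  SMulMemClass.smul_mem c ha

theorem ev_smulC (φ : Chars S) (c : ℂ) {a : Op H} (ha : a ∈ S.A) :
    ev S φ (c • a) = c * ev S φ a := by
  rw [ev_eq φ ha, ev_eq φ (smulC_memA c ha), ← smul_eq_mul, ← map_smul φ]
  rfl

theorem tr_star (x : Op H) : S.tr (star x) = S.tr x := by
  simp only [Tracial.tr, Tracial.tau]
  rw [Complex.re_tsum (tau_summable x), Complex.re_tsum (tau_summable (star x))]
  refine tsum_congr fun k => ?_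
  rw [ContinuousLinearMap.star_eq_adjoint, ContinuousLinearMap.adjoint_inner_right,
    ← inner_conj_symm, Complex.conj_re]

theorem tr_nonneg_re (hB : Basics S) {Z : Op H} (hZ : Z ∈ S.A)
    (h : ∀ φ : Chars S, 0 ≤ (ev S φ Z).re) : 0 ≤ S.tr Z := by
  have hm : Z + star Z ∈ S.A := add_mem hZ (star_mem hZ)
  have hn : 0 ≤ Z + star Z := by
    refine nonneg_of_re hm (IsSelfAdjoint.add_star_self Z) fun φ => ?_
    rw [ev_add φ hZ (star_mem hZ), ev_star φ hZ, Complex.add_re, Complex.conj_re]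
    linarith [h φ]
  have := tr_nonneg hB (S.le _ hm) hn
  rw [tr_add, tr_star] at this
  linarith

theorem tr_mono_re (hB : Basics S) {Y Z : Op H} (hY : Y ∈ S.A) (hZ : Z ∈ S.A)
    (h : ∀ φ : Chars S, (ev S φ Y).re ≤ (ev S φ Z).re) : S.tr Y ≤ S.tr Z := by
  have := tr_nonneg_re hB (sub_mem hZ hY) fun φ => by
    rw [ev_sub φ hZ hY, Complex.sub_re]; linarith [h φ]
  rw [tr_sub] at this
  linarith

/-- Cauchy-Schwarz for the form `x, y ↦ E (x* K y)`. -/
theorem cs (hB : Basics S) {K u v : Op H} (hKM : K ∈ S.M) (hK : 0 ≤ K) (hu : u ∈ S.M)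
    (hv : v ∈ S.M) (φ : Chars S) :
    Complex.normSq (ev S φ (S.E (star u * K * v))) ≤
      (ev S φ (S.E (star u * K * u))).re * (ev S φ (S.E (star v * K * v))).re := by
  set C := ev S φ (S.E (star u * K * v)) with hC
  set U := (ev S φ (S.E (star u * K * u))).re
  set V := (ev S φ (S.E (star v * K * v))).re
  have hmem : ∀ {x y : Op H}, x ∈ S.M → y ∈ S.M → star x * K * y ∈ S.M := fun hx hy =>
    mul_mem (mul_mem (star_mem hx) hKM) hy
  have hswap : ev S φ (S.E (star v * K * u)) = starRingEnd ℂ C := by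
    rw [hC, ← ev_star φ (hB.E_mem _ (hmem hu hv)), ← hB.E_star _ (hmem hu hv)]
    congr 2
    simp [mul_assoc, (IsSelfAdjoint.of_nonneg hK).star_eq]
  have key : ∀ t : ℝ, 0 ≤ t ^ 2 * Complex.normSq C * U + 2 * t * Complex.normSq C + V := by
    intro t
    set l : ℂ := -((-t : ℝ) : ℂ) * C
    have hz : l • u + v ∈ S.M := add_mem (smulC_memM l hu) hv
    have hn : 0 ≤ star (l • u + v) * K * (l • u + v) := star_left_conjugate_nonneg hK _
    have hexp : star (l • u + v) * K * (l • u + v) = (starRingEnd ℂ l * l) • (star u * K * u) +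
        starRingEnd ℂ l • (star u * K * v) + (l • (star v * K * u) + star v * K * v) := by
      simp only [star_add, star_smul, RCLike.star_def, add_mul, mul_add, smul_mul_assoc,
        mul_smul_comm]
      rw [smul_add, smul_smul, mul_comm l (starRingEnd ℂ l)]
      abel
    have h1 := re_nonneg (hB.E_mem _ (mul_mem (mul_mem (star_mem hz) hKM) hz))
      (hB.E_nonneg _ (mul_mem (mul_mem (star_mem hz) hKM) hz) hn) φ
    have muu := hmem hu hu
    have muv := hmem hu hv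
    have mvu := hmem hv hu
    have mvv := hmem hv hv
    rw [hexp, hB.E_add _ (add_mem (smulC_memM _ muu) (smulC_memM _ muv)) _
        (add_mem (smulC_memM _ mvu) mvv),
      hB.E_add _ (smulC_memM _ muu) _ (smulC_memM _ muv), hB.E_add _ (smulC_memM _ mvu) _ mvv,
      hB.E_smul _ _ muu, hB.E_smul _ _ muv, hB.E_smul _ _ mvu,
      ev_add φ (add_mem (smulC_memA _ (hB.E_mem _ muu)) (smulC_memA _ (hB.E_mem _ muv)))
        (add_mem (smulC_memA _ (hB.E_mem _ mvu)) (hB.E_mem _ mvv)),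
      ev_add φ (smulC_memA _ (hB.E_mem _ muu)) (smulC_memA _ (hB.E_mem _ muv)),
      ev_add φ (smulC_memA _ (hB.E_mem _ mvu)) (hB.E_mem _ mvv),
      ev_smulC φ _ (hB.E_mem _ muu), ev_smulC φ _ (hB.E_mem _ muv),
      ev_smulC φ _ (hB.E_mem _ mvu), hswap, ← hC] at h1
    simp only [l, Complex.ofReal_neg, neg_neg, map_mul, Complex.conj_ofReal, Complex.add_re,
      Complex.mul_re, Complex.mul_im, Complex.conj_re, Complex.conj_im, Complex.ofReal_re,
      Complex.ofReal_im] at h1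
    simp only [Complex.normSq_apply, U, V]
    nlinarith [h1]
  rcases (Complex.normSq_nonneg C).eq_or_lt' with h0 | h0
  · rw [h0]
    exact mul_nonneg (re_nonneg (hB.E_mem _ (hmem hu hu))
      (hB.E_nonneg _ (hmem hu hu) (star_left_conjugate_nonneg hK _)) φ)
      (re_nonneg (hB.E_mem _ (hmem hv hv))
      (hB.E_nonneg _ (hmem hv hv) (star_left_conjugate_nonneg hK _)) φ)
  · have hd := discrim_le_zero (a := Complex.normSq C * U) (b := 2 * Complex.normSq C) (c := V)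
      fun t => by nlinarith [key t]
    rw [discrim] at hd
    nlinarith

/-- The two-sided map `b ↦ E (G b G)`. -/
def W (d : Side S) (s : Bool) (b : Op H) : Op H := S.E (d.G s * b * d.G s)

variable (hB : Basics S) {d : Side S} {c₀ : ℝ} (hd : d.Valid c₀)

include hd in
theorem G_sa (s : Bool) : star (d.G s) = d.G s :=
  (IsSelfAdjoint.of_nonneg (hd.G_nonneg s)).star_eq

include hd in
theorem K_facts (s : Bool) : Ring.inverse (d.G s) ∈ S.M ∧
    star (Ring.inverse (d.G s)) = Ring.inverse (d.G s) ∧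
    d.G s * Ring.inverse (d.G s) = 1 ∧ Ring.inverse (d.G s) * d.G s = 1 := by
  have h1 := Ring.mul_inverse_cancel _ (hd.G_unit s)
  have h2 := Ring.inverse_mul_cancel _ (hd.G_unit s)
  set K := Ring.inverse (d.G s)
  refine ⟨?_, ?_, h1, h2⟩
  · rw [← S.M.commutant_commutant, VonNeumannAlgebra.mem_commutant_iff]
    intro x hx
    have hc : d.G s * x = x * d.G s := (VonNeumannAlgebra.mem_commutant_iff.1 hx _ (hd.G_mem s))
    calc x * K = K * d.G s * x * K := by rw [h2, one_mul]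
      _ = K * (x * d.G s) * K := by rw [mul_assoc K, hc]
      _ = K * x := by rw [mul_assoc, mul_assoc x, h1, mul_one]
  · refine left_inv_eq_right_inv ?_ h1
    rw [← G_sa hd s, ← star_mul, h1, star_one]

include hB hd in
theorem E_G_mul_K (s : Bool) (φ : Chars S) :
    ev S φ (S.E (d.G s * Ring.inverse (d.G s))) = 1 := by
  rw [(K_facts hd s).2.2.1, hB.E_self 1 (one_mem _), ev_one]

include hB hd in
theorem g_pos (s : Bool) (φ : Chars S) : 0 < (ev S φ (d.g s)).re := by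
  obtain ⟨hKM, hKs, h1, h2⟩ := K_facts hd s
  have h := cs hB (hd.G_mem s) (hd.G_nonneg s) (one_mem _) hKM φ
  rw [star_one, one_mul, E_G_mul_K hB hd s φ, map_one, mul_one] at h
  have hg : 0 ≤ (ev S φ (d.g s)).re :=
    re_nonneg (hB.E_mem _ (hd.G_mem s)) (hB.E_nonneg _ (hd.G_mem s) (hd.G_nonneg s)) φ
  refine lt_of_le_of_ne hg fun h0 => ?_
  rw [Side.g] at h0
  rw [← h0, zero_mul] at h
  linarith

include hB hd in
theorem g_facts (s : Bool) : d.g s ∈ S.A ∧ IsSelfAdjoint (d.g s) ∧ d.gi s ∈ S.A ∧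
    ∀ φ : Chars S, ev S φ (d.gi s) = (((ev S φ (d.g s)).re)⁻¹ : ℝ) := by
  have hm : d.g s ∈ S.A := hB.E_mem _ (hd.G_mem s)
  have hsa : IsSelfAdjoint (d.g s) :=
    IsSelfAdjoint.of_nonneg (hB.E_nonneg _ (hd.G_mem s) (hd.G_nonneg s))
  have hu : IsUnit (d.g s) := isUnit_of_ev hm fun φ h => by
    have := g_pos hB hd s φ
    simp [h] at this
  refine ⟨hm, hsa, (inverse_mem hm hu).1, fun φ => ?_⟩
  have h := (inverse_mem hm hu).2 φ
  rw [ev_real φ hm hsa] at h
  rw [Complex.ofReal_inv]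
  exact eq_inv_of_mul_eq_one_left h

include hB hd in
theorem W_mem (s : Bool) {b : Op H} (hb : b ∈ S.M) : W d s b ∈ S.A :=
  hB.E_mem _ (mul_mem (mul_mem (hd.G_mem s) hb) (hd.G_mem s))

include hB hd in
theorem W_star (s : Bool) {b : Op H} (hb : b ∈ S.M) : W d s (star b) = star (W d s b) := by
  rw [W, W, ← hB.E_star _ (mul_mem (mul_mem (hd.G_mem s) hb) (hd.G_mem s))]
  congr 1
  simp [mul_assoc, G_sa hd s]

include hB hd in
/-- `W b ≥ g² b` for `b ≥ 0`. -/
theorem W_ge (s : Bool) {b : Op H} (hb : b ∈ S.A) (h0 : ∀ φ : Chars S, 0 ≤ (ev S φ b).re)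
    (hsa : IsSelfAdjoint b) (φ : Chars S) :
    (ev S φ (d.g s)).re ^ 2 * (ev S φ b).re ≤ (ev S φ (W d s b)).re := by
  have hbn : 0 ≤ b := nonneg_of_re hb hsa h0
  have h := cs hB (S.le b hb) hbn (hd.G_mem s) (one_mem _) φ
  rw [G_sa hd s, mul_one, star_one, one_mul, mul_one, hB.E_self b hb,
    (hB.E_mul b hb _ (hd.G_mem s)).2] at h
  change Complex.normSq (ev S φ (b * d.g s)) ≤ (ev S φ (W d s b)).re * (ev S φ b).re at h
  obtain ⟨hg, hgsa, -⟩ := g_facts hB hd s
  rw [ev_mul φ hb hg, ev_real φ hb hsa, ev_real φ hg hgsa, ← Complex.ofReal_mul,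
    Complex.normSq_ofReal, Complex.ofReal_re] at h
  rcases (h0 φ).eq_or_lt' with hz | hz
  · rw [hz, mul_zero]
    refine re_nonneg (W_mem hB hd s (S.le b hb))
      (hB.E_nonneg _ (mul_mem (mul_mem (hd.G_mem s) (S.le b hb)) (hd.G_mem s)) ?_) φ
    have := star_left_conjugate_nonneg hbn (d.G s)
    rwa [G_sa hd s] at this
  · exact le_of_mul_le_mul_right (le_trans (le_of_eq (by ring)) h) hz

include hB hd in
/-- The Schur variation is controlled by the quadratic slack. -/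
theorem L_sq_le (s : Bool) {b : Op H} (hb : b ∈ S.A) (φ : Chars S) :
    (ev S φ (d.g s)).re ^ 2 * Complex.normSq (ev S φ (d.L s b)) ≤
      ((ev S φ (S.E (Ring.inverse (d.G s)))).re - ((ev S φ (d.g s)).re)⁻¹) *
        ((ev S φ (S.E (d.G s * star b * d.G s * b * d.G s))).re -
          Complex.normSq (ev S φ (W d s b)) / (ev S φ (d.g s)).re) ∧
      0 ≤ (ev S φ (S.E (d.G s * star b * d.G s * b * d.G s))).re -
          Complex.normSq (ev S φ (W d s b)) / (ev S φ (d.g s)).re := by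
  obtain ⟨hg, hgsa, hgi, hgiev⟩ := g_facts hB hd s
  obtain ⟨hKM, hKs, h1, h2⟩ := K_facts hd s
  have hG := hd.G_mem s
  have hgs := G_sa hd s
  set G := d.G s
  set K := Ring.inverse G
  set γ := d.gi s with hγ
  set w := γ * W d s b with hw'
  have hW : W d s b ∈ S.A := W_mem hB hd s (S.le b hb)
  have hw : w ∈ S.A := mul_mem hgi hW
  have hγs : star γ = γ := eq_of_ev (star_mem hgi) hgi fun ψ => by
    rw [ev_star ψ hgi, hgiev ψ, Complex.conj_ofReal]
  have hm : ∀ {x y : Op H}, x ∈ S.M → y ∈ S.M → x * G * y ∈ S.M := fun hx hy =>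
    mul_mem (mul_mem hx hG) hy
  have hbM := S.le b hb
  have hv : b * G - w ∈ S.M := sub_mem (mul_mem hbM hG) (S.le w hw)
  have hu : K - γ ∈ S.M := sub_mem hKM (S.le γ hgi)
  have h := And.intro (cs hB hG (hd.G_nonneg s) hu hv φ)
    (re_nonneg (hB.E_mem _ (mul_mem (mul_mem (star_mem hv) hG) hv))
      (hB.E_nonneg _ (mul_mem (mul_mem (star_mem hv) hG) hv)
        (star_left_conjugate_nonneg (hd.G_nonneg s) _)) φ)
  have EG : ∀ {x y : Op H}, x ∈ S.A → y ∈ S.A → S.E (x * G * y) = x * d.g s * y := by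
    intro x y hx hy
    rw [mul_assoc, (hB.E_mul x hx _ (mul_mem hG (S.le y hy))).1, (hB.E_mul y hy _ hG).2,
      S.comm y hy _ (hB.E_mem _ hG), ← mul_assoc]
    rfl
  have Esub : ∀ {x y : Op H}, x ∈ S.M → y ∈ S.M → S.E (x - y) = S.E x - S.E y := by
    intro x y hx hy
    have := hB.E_add _ (sub_mem hx hy) _ hy
    rw [sub_add_cancel] at this
    exact eq_sub_of_add_eq this.symm
  have hone : S.E (1 : Op H) = 1 := hB.E_self 1 (one_mem _)
  have e1 : S.E (star (K - γ) * G * (K - γ)) = (S.E K - γ) - (γ - γ * d.g s * γ) := by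
    rw [star_sub, hKs, hγs, sub_mul, h2, sub_mul, one_mul, mul_sub, mul_assoc γ G K, h1, mul_one,
      Esub (sub_mem hKM (S.le γ hgi)) (sub_mem (S.le γ hgi) (hm (S.le γ hgi) (S.le γ hgi))),
      Esub hKM (S.le γ hgi), Esub (S.le γ hgi) (hm (S.le γ hgi) (S.le γ hgi)),
      hB.E_self γ hgi, EG hgi hgi]
  have e2 : S.E (star (K - γ) * G * (b * G - w)) =
      (b * d.g s - w) - (γ * W d s b - γ * d.g s * w) := by
    rw [star_sub, hKs, hγs, sub_mul, h2, sub_mul, one_mul, mul_sub,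
      Esub (sub_mem (mul_mem hbM hG) (S.le w hw))
        (sub_mem (hm (S.le γ hgi) (mul_mem hbM hG)) (hm (S.le γ hgi) (S.le w hw))),
      Esub (mul_mem hbM hG) (S.le w hw), Esub (hm (S.le γ hgi) (mul_mem hbM hG))
        (hm (S.le γ hgi) (S.le w hw)), (hB.E_mul b hb _ hG).1, hB.E_self w hw, EG hgi hw,
      show γ * G * (b * G) = γ * (G * b * G) by simp only [mul_assoc],
      (hB.E_mul γ hgi _ (mul_mem (mul_mem hG hbM) hG)).1]
    rfl
  have e3 : S.E (star (b * G - w) * G * (b * G - w)) =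
      (S.E (G * star b * G * b * G) - W d s (star b) * w) -
        (star w * W d s b - star w * d.g s * w) := by
    have hsb : star b ∈ S.M := star_mem hbM
    have m1 : G * star b * G * b * G ∈ S.M :=
      mul_mem (mul_mem (mul_mem (mul_mem hG hsb) hG) hbM) hG
    have m2 : G * star b * G * w ∈ S.M := mul_mem (mul_mem (mul_mem hG hsb) hG) (S.le w hw)
    have m3 : star w * (G * b * G) ∈ S.M := mul_mem (star_mem (S.le w hw)) (mul_mem (mul_mem hG hbM) hG)
    have m4 : star w * G * w ∈ S.M := hm (star_mem (S.le w hw)) (S.le w hw)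
    rw [show star (b * G - w) * G * (b * G - w) =
        (G * star b * G * b * G - G * star b * G * w) -
          (star w * (G * b * G) - star w * G * w) by
        simp only [star_sub, star_mul, hgs, sub_mul, mul_sub, mul_assoc]; abel,
      Esub (sub_mem m1 m2) (sub_mem m3 m4), Esub m1 m2, Esub m3 m4,
      (hB.E_mul w hw _ (mul_mem (mul_mem hG hsb) hG)).2,
      (hB.E_mul _ (star_mem hw) _ (mul_mem (mul_mem hG hbM) hG)).1, EG (star_mem hw) hw]
    rw [S.comm w hw _ (hB.E_mem _ (mul_mem (mul_mem hG hsb) hG))]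
    rfl
  have hL : d.L s b = b - γ * γ * W d s b := rfl
  rw [e1, e2, e3, W_star hB hd s hbM] at h
  have hEK := hB.E_mem _ hKM
  have hQ : S.E (G * star b * G * b * G) ∈ S.A :=
    hB.E_mem _ (mul_mem (mul_mem (mul_mem (mul_mem hG (star_mem hbM)) hG) hbM) hG)
  simp (disch := repeat' first | assumption | apply sub_mem | apply mul_mem | apply star_mem) only
    [ev_sub, ev_mul, ev_star, hw'] at h
  simp only [hgiev] at h
  rw [hL]
  simp (disch := repeat' first | assumption | apply sub_mem | apply mul_mem | apply star_mem) only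
    [ev_sub, ev_mul]
  simp only [hgiev]
  rw [ev_real φ hg hgsa] at h
  simp only [Complex.ofReal_re] at h
  have hpos := g_pos hB hd s φ
  set Γ := (ev S φ (d.g s)).re with hΓ
  have hΓ0 : (Γ : ℂ) ≠ 0 := Complex.ofReal_ne_zero.2 hpos.ne'
  set B := ev S φ b
  set Ω := ev S φ (W d s b)
  set q := ev S φ (S.E (G * star b * G * b * G))
  set k := ev S φ (S.E K)
  simp only [map_mul, Complex.ofReal_inv] at h ⊢
  have a1 : (k - (Γ : ℂ)⁻¹) - ((Γ : ℂ)⁻¹ - (Γ : ℂ)⁻¹ * Γ * (Γ : ℂ)⁻¹) = k - ((Γ⁻¹ : ℝ) : ℂ) := by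
    rw [Complex.ofReal_inv]; field_simp; ring
  have a2 : (B * Γ - (Γ : ℂ)⁻¹ * Ω) - ((Γ : ℂ)⁻¹ * Ω - (Γ : ℂ)⁻¹ * Γ * ((Γ : ℂ)⁻¹ * Ω)) =
      (Γ : ℂ) * (B - (Γ : ℂ)⁻¹ * (Γ : ℂ)⁻¹ * Ω) := by
    field_simp; ring
  have a3 : (q - starRingEnd ℂ Ω * ((Γ : ℂ)⁻¹ * Ω)) -
      (starRingEnd ℂ ((Γ : ℂ)⁻¹) * starRingEnd ℂ Ω * Ω -
        starRingEnd ℂ ((Γ : ℂ)⁻¹) * starRingEnd ℂ Ω * Γ * ((Γ : ℂ)⁻¹ * Ω)) =
      q - ((Complex.normSq Ω / Γ : ℝ) : ℂ) := by
    rw [map_inv₀, Complex.conj_ofReal, Complex.ofReal_div, Complex.normSq_eq_conj_mul_self]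
    field_simp
    ring
  rw [a1, a2, a3, Complex.normSq_mul, Complex.normSq_ofReal, Complex.sub_re, Complex.sub_re,
    Complex.ofReal_re, Complex.ofReal_re] at h
  rw [pow_two]
  exact h

include hB hd in
/-- The values of a live colour at a character of its support, and off it. -/
theorem vals (φ : Chars S) :
    d.p ∈ S.A ∧ d.fz ∈ S.A ∧ (ev S φ d.a).im = 0 ∧
    (ev S φ d.p) = (((ev S φ d.a).re)⁻¹ : ℝ) ∧
    ev S φ d.fz = ((1 - ((ev S φ d.a).re - ((ev S φ (d.g false)).re)⁻¹) -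
      ((ev S φ d.a).re - ((ev S φ (d.g true)).re)⁻¹) : ℝ) : ℂ) ∧
    (ev S φ d.e = 0 ∨ (ev S φ d.e = 1 ∧ c₀ ≤ ((ev S φ d.a).re)⁻¹ ∧
      ((ev S φ d.a).re)⁻¹ ≤ 1 / 480 ∧
      c₀ ≤ 1 - ((ev S φ d.a).re - ((ev S φ (d.g false)).re)⁻¹) -
        ((ev S φ d.a).re - ((ev S φ (d.g true)).re)⁻¹) ∧
      ∀ s, -(1 / 100) ≤ (ev S φ d.a).re - ((ev S φ (d.g s)).re)⁻¹ ∧
        (ev S φ (S.E (Ring.inverse (d.G s)))).re ≤ (ev S φ d.a).re + 1 / 100)) := by
  obtain ⟨hp, hpev⟩ : d.p ∈ S.A ∧ ∀ ψ : Chars S, ev S ψ d.p * ev S ψ d.a = 1 :=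
    inverse_mem hd.a_mem hd.a_unit
  have hg := g_facts hB hd
  have hxi : ∀ s, d.xi s ∈ S.A := fun s => sub_mem hd.a_mem (hg s).2.2.1
  have hfz : d.fz ∈ S.A := sub_mem (sub_mem (one_mem _) (hxi false)) (hxi true)
  have ha := ev_real φ hd.a_mem hd.a_sa
  set A := (ev S φ d.a).re
  have hP : ev S φ d.p = ((A⁻¹ : ℝ) : ℂ) := by
    have := hpev φ
    rw [ha] at this
    rw [Complex.ofReal_inv]
    exact eq_inv_of_mul_eq_one_left this
  have hX : ∀ s, ev S φ (d.xi s) = ((A - ((ev S φ (d.g s)).re)⁻¹ : ℝ) : ℂ) := fun s => by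
    rw [Side.xi, ev_sub φ hd.a_mem (hg s).2.2.1, (hg s).2.2.2 φ, ha, Complex.ofReal_sub]
  have hF : ev S φ d.fz = ((1 - (A - ((ev S φ (d.g false)).re)⁻¹) -
      (A - ((ev S φ (d.g true)).re)⁻¹) : ℝ) : ℂ) := by
    rw [Side.fz, ev_sub φ (sub_mem (one_mem _) (hxi false)) (hxi true),
      ev_sub φ (one_mem _) (hxi false), ev_one, hX, hX]
    push_cast
    rfl
  refine ⟨hp, hfz, ev_im φ hd.a_mem hd.a_sa, hP, hF, ?_⟩
  have hee := congrArg (ev S φ) hd.e_proj.isIdempotentElem.eq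
  rw [ev_mul φ hd.e_mem hd.e_mem] at hee
  rcases eq_or_ne (ev S φ d.e) 0 with h0 | h0
  · exact Or.inl h0
  have he : ev S φ d.e = 1 := mul_right_cancel₀ h0 (by rw [hee, one_mul])
  refine Or.inr ⟨he, ?_, ?_, ?_, fun s => ⟨?_, ?_⟩⟩
  · have := re_le (smul_memA c₀ hd.e_mem) (mul_mem hd.e_mem hp) hd.p_lo φ
    rw [ev_smul φ _ hd.e_mem, ev_mul φ hd.e_mem hp, he, one_mul, mul_one, hP] at this
    simpa using this
  · have := re_le (mul_mem hd.e_mem hp) (smul_memA _ hd.e_mem) hd.p_hi φ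
    rw [ev_smul φ _ hd.e_mem, ev_mul φ hd.e_mem hp, he, one_mul, mul_one, hP] at this
    simpa using this
  · have := re_le (smul_memA c₀ hd.e_mem) (mul_mem hd.e_mem hfz) hd.fz_lo φ
    rw [ev_smul φ _ hd.e_mem, ev_mul φ hd.e_mem hfz, he, one_mul, mul_one, hF] at this
    simpa using this
  · have := re_le (smul_memA _ hd.e_mem) (mul_mem hd.e_mem (hxi s)) (hd.xi_lo s) φ
    rw [ev_smul φ _ hd.e_mem, ev_mul φ hd.e_mem (hxi s), he, one_mul, mul_one, hX] at this
    simpa using this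
  · have hK := hB.E_mem _ (K_facts hd s).1
    have := re_le (mul_mem hd.e_mem hK)
      (add_mem (mul_mem hd.e_mem hd.a_mem) (smul_memA _ hd.e_mem)) (hd.K_hi s) φ
    rw [ev_add φ (mul_mem hd.e_mem hd.a_mem) (smul_memA _ hd.e_mem), ev_mul φ hd.e_mem hd.a_mem,
      ev_smul φ _ hd.e_mem, ev_mul φ hd.e_mem hK, he, one_mul, one_mul, mul_one] at this
    simpa using this

end Dr

end Vale.Agent.P078.Tr
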