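import Vale.Agent.P078.Tr.Drift.Core

/-!
# P078, one colour at one step: the quadratic form and its value on fine cells
-/

open WeakDual
open scoped ComplexOrder InnerProductSpace

noncomputable section

namespace Vale.Agent.P078.Tr

namespace Dr

universe u

variable {H : Type u} [NormedAddCommGroup H] [InnerProductSpace ℂ H] [CompleteSpace H]
variable {S : Tracial H}

theorem tr_mul_le (Y Δ : Op H) {η : ℝ} (hη : 0 < η) :
    S.tr (Y * Δ) ≤ ‖Y‖ * (η / 2 + S.tr (star Δ * Δ) / (2 * η)) := by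
  have hterm : ∀ k, (⟪S.vec k, (Y * Δ) (S.vec k)⟫_ℂ).re ≤
      ‖Y‖ * (η / 2 * ‖S.vec k‖ ^ 2 + (⟪S.vec k, (star Δ * Δ) (S.vec k)⟫_ℂ).re / (2 * η)) := by
    intro k
    have e : (⟪S.vec k, (star Δ * Δ) (S.vec k)⟫_ℂ).re = ‖Δ (S.vec k)‖ ^ 2 := by
      rw [mul_apply_eq_comp, ContinuousLinearMap.star_eq_adjoint, ContinuousLinearMap.adjoint_inner_right]
      exact inner_self_eq_norm_sq (𝕜 := ℂ) _
    rw [e, mul_apply_eq_comp]
    refine (Complex.re_le_norm _).trans ((norm_inner_le_norm _ _).trans ?_)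
    calc ‖S.vec k‖ * ‖Y (Δ (S.vec k))‖ ≤ ‖S.vec k‖ * (‖Y‖ * ‖Δ (S.vec k)‖) := by
          gcongr; exact Y.le_opNorm _
      _ = ‖Y‖ * (‖S.vec k‖ * ‖Δ (S.vec k)‖) := by ring
      _ ≤ _ := by
          refine mul_le_mul_of_nonneg_left ?_ (norm_nonneg Y)
          rw [← sub_nonneg]
          have : η / 2 * ‖S.vec k‖ ^ 2 + ‖Δ (S.vec k)‖ ^ 2 / (2 * η) -
              ‖S.vec k‖ * ‖Δ (S.vec k)‖ =
              (η * ‖S.vec k‖ - ‖Δ (S.vec k)‖) ^ 2 / (2 * η) := by field_simp; ring
          rw [this]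
          positivity
  simp only [Tracial.tr, Tracial.tau]
  rw [Complex.re_tsum (tau_summable _), Complex.re_tsum (tau_summable _)]
  have h1 := (Complex.hasSum_re (tau_summable (S := S) (Y * Δ)).hasSum).summable
  have h2 := (Complex.hasSum_re (tau_summable (S := S) (star Δ * Δ)).hasSum).summable
  have h3 := S.norm_one.summable.mul_left (η / 2)
  refine (h1.tsum_le_tsum hterm ((h3.add (h2.div_const _)).mul_left _)).trans (le_of_eq ?_)
  rw [tsum_mul_left, h3.tsum_add (h2.div_const _), tsum_mul_left, S.norm_one.tsum_eq,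
    tsum_div_const, mul_one]

variable (d : Side S)

/-- The integrand of the form. -/
def zf (s : Bool) (k c κ b : Op H) : Op H :=
  k * (S.E (d.G s * star (d.a * b) * d.G s * (d.a * b) * d.G s) -
      d.gi s * (W d s (star (d.a * b)) * W d s (d.a * b))) -
    c * (star b * d.L s (d.a * b)) + κ * (star b * b)

variable (hB : Basics S) {d} {c₀ : ℝ} (hd : d.Valid c₀)

/-- The form `Q (a b) - cross + κ |b|²`. -/
def form (s : Bool) {k c κ : Op H} (hk : k ∈ S.A) (hc : c ∈ S.A) (hκ : κ ∈ S.A) : QForm S where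
  simple := [(d.G s * k * d.G s * d.a, d.G s * d.a), (-(c * d.a), 1),
    (d.G s * c * (d.gi s * d.gi s), d.G s * d.a), (κ, 1)]
  double := [(-(k * d.gi s), d.G s * d.a, d.G s, d.G s * d.a, d.G s)]
  simple_mem := by
    have hG := hd.G_mem s
    have ha := S.le _ hd.a_mem
    have hgi := S.le _ (g_facts hB hd s).2.2.1
    have hk' := S.le k hk
    have hc' := S.le c hc
    intro t ht
    simp only [List.mem_cons, List.not_mem_nil, or_false] at ht
    rcases ht with rfl | rfl | rfl | rfl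
    · exact ⟨mul_mem (mul_mem (mul_mem hG hk') hG) ha, mul_mem hG ha⟩
    · exact ⟨neg_mem (mul_mem hc' ha), one_mem _⟩
    · exact ⟨mul_mem (mul_mem hG hc') (mul_mem hgi hgi), mul_mem hG ha⟩
    · exact ⟨S.le κ hκ, one_mem _⟩
  double_mem := by
    have hG := hd.G_mem s
    have ha := S.le _ hd.a_mem
    have hgi := (g_facts hB hd s).2.2.1
    intro t ht
    simp only [List.mem_cons, List.not_mem_nil, or_false] at ht
    subst ht
    exact ⟨neg_mem (mul_mem hk hgi), mul_mem hG ha, hG, mul_mem hG ha, hG⟩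

include hB hd in
theorem zf_mem (s : Bool) {k c κ b : Op H} (hk : k ∈ S.A) (hc : c ∈ S.A) (hκ : κ ∈ S.A)
    (hb : b ∈ S.A) : zf d s k c κ b ∈ S.A := by
  have hu := mul_mem hd.a_mem hb
  have hG := hd.G_mem s
  have hgi := (g_facts hB hd s).2.2.1
  exact add_mem (sub_mem (mul_mem hk (sub_mem
    (hB.E_mem _ (mul_mem (mul_mem (mul_mem (mul_mem hG (star_mem (S.le _ hu))) hG) (S.le _ hu)) hG))
    (mul_mem hgi (mul_mem (W_mem hB hd s (star_mem (S.le _ hu))) (W_mem hB hd s (S.le _ hu))))))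
    (mul_mem hc (mul_mem (star_mem hb) (sub_mem hu (mul_mem (mul_mem hgi hgi)
      (W_mem hB hd s (S.le _ hu)))))))
    (mul_mem hκ (mul_mem (star_mem hb) hb))

include hB hd in
theorem eval_form (s : Bool) {k c κ b : Op H} (hk : k ∈ S.A) (hc : c ∈ S.A) (hκ : κ ∈ S.A)
    (hb : b ∈ S.A) : (form hB hd s hk hc hκ).eval b = S.tr (zf d s k c κ b) := by
  have hG := hd.G_mem s
  have hgi := (g_facts hB hd s).2.2.1
  have ha := hd.a_mem
  have hu : d.a * b ∈ S.M := S.le _ (mul_mem ha hb)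
  have hab : d.a * star b = star (d.a * b) := by
    rw [star_mul, hd.a_sa.star_eq, S.comm _ ha _ (star_mem hb)]
  have hGuG : d.G s * (d.a * b) * d.G s ∈ S.M := mul_mem (mul_mem hG hu) hG
  have hQ : d.G s * star (d.a * b) * d.G s * (d.a * b) * d.G s ∈ S.M :=
    mul_mem (mul_mem (mul_mem (mul_mem hG (star_mem hu)) hG) hu) hG
  have t1 : S.tr (d.G s * k * d.G s * d.a * star b * (d.G s * d.a) * b) =
      S.tr (k * S.E (d.G s * star (d.a * b) * d.G s * (d.a * b) * d.G s)) := by
    rw [tr_E hB hQ hk, show d.G s * k * d.G s * d.a * star b * (d.G s * d.a) * b =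
      d.G s * (k * d.G s * star (d.a * b) * d.G s * (d.a * b)) by
        rw [← hab]; simp only [mul_assoc],
      tr_comm hB hG (mul_mem (mul_mem (mul_mem (mul_mem (S.le k hk) hG) (star_mem hu)) hG) hu)]
    simp only [mul_assoc]
  have t2 : S.tr (d.G s * c * (d.gi s * d.gi s) * star b * (d.G s * d.a) * b) =
      S.tr (c * (star b * (d.gi s * d.gi s * W d s (d.a * b)))) := by
    have hc'' : c * (star b * (d.gi s * d.gi s)) ∈ S.A :=
      mul_mem hc (mul_mem (star_mem hb) (mul_mem hgi hgi))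
    have hcomm : star b * (d.gi s * d.gi s) = d.gi s * d.gi s * star b :=
      S.comm _ (star_mem hb) _ (mul_mem hgi hgi)
    rw [show c * (star b * (d.gi s * d.gi s * W d s (d.a * b))) =
        c * (star b * (d.gi s * d.gi s)) * W d s (d.a * b) by simp only [mul_assoc],
      W, tr_E hB hGuG hc'', show d.G s * c * (d.gi s * d.gi s) * star b * (d.G s * d.a) * b =
        d.G s * (c * (star b * (d.gi s * d.gi s)) * (d.G s * (d.a * b))) by
          rw [hcomm]; simp only [mul_assoc],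
      tr_comm hB hG (mul_mem (S.le _ hc'') (mul_mem hG hu))]
    simp only [mul_assoc]
  simp only [QForm.eval, form, List.map_cons, List.map_nil, List.sum_cons, List.sum_nil, add_zero,
    t1, t2, mul_one]
  rw [show d.G s * d.a * star b * d.G s = d.G s * star (d.a * b) * d.G s by
      rw [← hab]; simp only [mul_assoc],
    show d.G s * d.a * b * d.G s = d.G s * (d.a * b) * d.G s by simp only [mul_assoc]]
  simp only [zf, Side.L, W, mul_sub, tr_add, tr_sub, neg_mul, tr_neg, mul_assoc]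
  rw [show d.a * (star b * b) = star b * (d.a * b) by
    rw [← mul_assoc, S.comm _ ha _ (star_mem hb), mul_assoc]]
  ring

include hB hd in
/-- On fine cells the form is at most its diagonal value. -/
theorem eval_cells (s : Bool) {k c κ X : Op H} (hk : k ∈ S.A) (hc : c ∈ S.A) (hκ : κ ∈ S.A)
    (hkre : ∀ φ : Chars S, 0 ≤ (ev S φ k).re) (hkim : ∀ φ : Chars S, (ev S φ k).im = 0)
    (hX : X ∈ S.A) (hXs : IsSelfAdjoint X)
    (hXa : ∀ φ : Chars S, 0 ≤ (ev S φ X).re * (ev S φ d.a).re) :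
    ∃ C : ℝ, ∀ η > (0 : ℝ), ∃ P₀ : Part S, ∀ P : Part S, P.Refines P₀ →
      ∑ i, (form hB hd s hk hc hκ).eval (X * P.p i) ≤
        S.tr (k * W d s (d.a * X * d.g s * (d.a * X))) -
          S.tr (k * (d.g s * d.g s * d.g s) * (d.a * X * (d.a * X))) + S.tr (κ * (X * X)) +
          C * η := by
  obtain ⟨hg, hgsa, hgi, hgiev⟩ := g_facts hB hd s
  have hG := hd.G_mem s
  have ha := hd.a_mem
  set G := d.G s
  set u := d.a * X with hudef
  have hu : u ∈ S.A := mul_mem ha hX
  set c' := c * (d.gi s * d.gi s) * X with hc'def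
  have hc' : c' ∈ S.A := mul_mem (mul_mem hc (mul_mem hgi hgi)) hX
  refine ⟨‖u * G * k * G * u‖ + ‖u * G * c'‖, fun η hη => ?_⟩
  obtain ⟨P₀, hP₀⟩ := hB.pinch_tendsto G hG (η ^ 2) (by positivity)
  refine ⟨P₀, fun P hP => ?_⟩
  have hΔ := hP₀ P hP
  set Δ := P.pinch G - d.g s with hΔdef
  have hpinM : P.pinch G ∈ S.M :=
    sum_mem fun i _ => mul_mem (mul_mem (S.le _ (P.mem i)) hG) (S.le _ (P.mem i))
  have hΔM : Δ ∈ S.M := sub_mem hpinM (S.le _ hg)
  have hsm : ∀ Y : Op H, S.tr (Y * Δ) ≤ ‖Y‖ * η := fun Y => by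
    refine (tr_mul_le Y Δ hη).trans (mul_le_mul_of_nonneg_left ?_ (norm_nonneg Y))
    have : S.tr (star Δ * Δ) / (2 * η) ≤ η ^ 2 / (2 * η) :=
      div_le_div_of_nonneg_right hΔ (by positivity)
    have e : η ^ 2 / (2 * η) = η / 2 := by field_simp
    linarith
  have hb : ∀ i, X * P.p i ∈ S.A := fun i => mul_mem hX (P.mem i)
  have hbs : ∀ i, star (X * P.p i) = X * P.p i := fun i => by
    rw [star_mul, hXs.star_eq, (P.proj i).isSelfAdjoint.star_eq, S.comm _ (P.mem i) _ hX]
  have hus : ∀ i, star (d.a * (X * P.p i)) = d.a * (X * P.p i) := fun i => by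
    rw [star_mul, hbs i, hd.a_sa.star_eq, S.comm _ (hb i) _ ha]
  have hsumP : ∀ Z : Op H, ∑ i, Z * P.p i = Z := fun Z => by rw [← Finset.mul_sum, P.sum_eq, mul_one]
  have hpp : ∀ i, P.p i * P.p i = P.p i := fun i => (P.proj i).isIdempotentElem.eq
  -- the three parts of one cell
  have hcell : ∀ i, (form hB hd s hk hc hκ).eval (X * P.p i) ≤
      S.tr (u * G * k * G * u * (P.p i * G * P.p i)) -
        S.tr (k * (d.g s * d.g s * d.g s) * (u * u) * P.p i) -
        S.tr (c * (X * u) * P.p i) + S.tr (u * G * c' * (P.p i * G * P.p i)) +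
        S.tr (κ * (X * X) * P.p i) := by
    intro i
    set p := P.p i
    have hp : p ∈ S.A := P.mem i
    have hpi' : p * p = p := hpp i
    set v := d.a * (X * p) with hvdef
    have hv : v ∈ S.A := mul_mem ha (hb i)
    have hvp : v = u * p := (mul_assoc _ _ _).symm
    have hvp' : v = p * u := by rw [hvp, S.comm _ hu _ hp]
    have hWv : W d s v ∈ S.A := W_mem hB hd s (S.le v hv)
    have hGvG : G * v * G ∈ S.M := mul_mem (mul_mem hG (S.le v hv)) hG
    have hQ : G * v * G * v * G ∈ S.M := mul_mem (mul_mem hGvG (S.le v hv)) hG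
    have m1 : S.tr (k * S.E (G * v * G * v * G)) = S.tr (u * G * k * G * u * (p * G * p)) := by
      rw [tr_E hB hQ hk, show k * (G * v * G * v * G) = k * G * (u * (p * G * p)) * (u * G) by
        nth_rw 1 [hvp]; nth_rw 1 [hvp']; simp only [mul_assoc],
        tr_comm hB (mul_mem (mul_mem (S.le k hk) hG) (mul_mem (S.le u hu)
          (mul_mem (mul_mem (S.le p hp) hG) (S.le p hp)))) (mul_mem (S.le u hu) hG)]
      simp only [mul_assoc]
    have m2 : S.tr (k * (d.g s * d.g s * d.g s) * (u * u) * p) ≤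
        S.tr (k * (d.gi s * (W d s v * W d s v))) := by
      refine tr_mono_re hB (mul_mem (mul_mem (mul_mem hk (mul_mem (mul_mem hg hg) hg))
        (mul_mem hu hu)) hp) (mul_mem hk (mul_mem hgi (mul_mem hWv hWv))) fun φ => ?_
      have hpr : 0 ≤ (ev S φ p).re := re_nonneg hp (P.proj i).nonneg φ
      have hpi := ev_im φ hp (P.proj i).isSelfAdjoint
      have hXi := ev_im φ hX hXs
      have hai := ev_im φ ha hd.a_sa
      have hgim := ev_im φ hg hgsa
      have hv0 : ∀ ψ : Chars S, 0 ≤ (ev S ψ v).re := fun ψ => by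
        have h1 := hXa ψ
        rw [hvdef, ev_mul ψ ha (hb i), ev_mul ψ hX hp, Complex.mul_re, Complex.mul_re,
          ev_im ψ ha hd.a_sa, ev_im ψ hX hXs]
        have := re_nonneg hp (P.proj i).nonneg ψ
        nlinarith
      have hvsa : IsSelfAdjoint v := hus i
      have hle := W_ge hB hd s hv hv0 hvsa φ
      have hWi := ev_im φ hWv (by
        rw [IsSelfAdjoint, ← W_star hB hd s (S.le v hv), hvsa.star_eq])
      have hgp := g_pos hB hd s φ
      have hv1 : (ev S φ v).re = (ev S φ u).re * (ev S φ p).re := by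
        rw [hvp, ev_mul φ hu hp, Complex.mul_re, hpi]; ring
      have hp2 : (ev S φ p).re * (ev S φ p).re = (ev S φ p).re := by
        have := congrArg (fun z => (ev S φ z).re) hpi'
        simpa only [ev_mul φ hp hp, Complex.mul_re, hpi, mul_zero, sub_zero] using this
      have hui : (ev S φ u).im = 0 := by
        rw [hudef, ev_mul φ ha hX, Complex.mul_im, hai, hXi]; ring
      rw [ev_mul φ (mul_mem (mul_mem hk (mul_mem (mul_mem hg hg) hg)) (mul_mem hu hu)) hp,
        ev_mul φ (mul_mem hk (mul_mem (mul_mem hg hg) hg)) (mul_mem hu hu),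
        ev_mul φ hk (mul_mem (mul_mem hg hg) hg), ev_mul φ (mul_mem hg hg) hg, ev_mul φ hg hg,
        ev_mul φ hu hu, ev_mul φ hk (mul_mem hgi (mul_mem hWv hWv)), ev_mul φ hgi (mul_mem hWv hWv),
        ev_mul φ hWv hWv, hgiev φ]
      simp only [Complex.mul_re, Complex.mul_im, hkim φ, hgim, hui, hWi, hpi, Complex.ofReal_re,
        Complex.ofReal_im, mul_zero, zero_mul, sub_zero, add_zero]
      set Γ := (ev S φ (d.g s)).re
      set w := (ev S φ (W d s v)).re
      set U := (ev S φ u).re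
      set q := (ev S φ p).re
      have h2 : (Γ ^ 2 * (ev S φ v).re) ^ 2 ≤ w ^ 2 :=
        pow_le_pow_left₀ (mul_nonneg (sq_nonneg _) (hv0 φ)) hle 2
      rw [hv1] at h2
      have h3 : (ev S φ k).re * Γ⁻¹ * (Γ ^ 2 * (U * q)) ^ 2 ≤ (ev S φ k).re * Γ⁻¹ * w ^ 2 :=
        mul_le_mul_of_nonneg_left h2 (mul_nonneg (hkre φ) (inv_nonneg.2 hgp.le))
      refine le_trans (le_of_eq ?_) (le_trans h3 (le_of_eq (by ring)))
      calc (ev S φ k).re * (Γ * Γ * Γ) * (U * U) * q
          = (ev S φ k).re * (Γ * Γ * Γ) * (U * U) * (q * q) := by rw [hp2]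
        _ = (ev S φ k).re * Γ⁻¹ * (Γ ^ 2 * (U * q)) ^ 2 := by field_simp
    have m3 : S.tr (c * ((X * p) * (d.a * (X * p)))) = S.tr (c * (X * u) * p) := by
      rw [← hvdef, hvp', show X * p * (p * u) = X * (p * p) * u by simp only [mul_assoc], hpi',
        mul_assoc X p u, S.comm _ hp _ hu]
      simp only [mul_assoc]
    have m4 : S.tr (c * ((X * p) * (d.gi s * d.gi s * W d s v))) =
        S.tr (u * G * c' * (p * G * p)) := by
      have e : c * ((X * p) * (d.gi s * d.gi s * W d s v)) = c' * p * W d s v := by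
        rw [hc'def, show (X * p) * (d.gi s * d.gi s * W d s v) =
          (X * p * (d.gi s * d.gi s)) * W d s v by simp only [mul_assoc],
          S.comm _ (hb i) _ (mul_mem hgi hgi)]
        simp only [mul_assoc]
        rfl
      rw [e, W, tr_E hB hGvG (mul_mem hc' hp),
        show c' * p * (G * v * G) = c' * (p * G * p) * (u * G) by rw [hvp']; simp only [mul_assoc],
        tr_comm hB (mul_mem (S.le c' hc') (mul_mem (mul_mem (S.le p hp) hG) (S.le p hp)))
          (mul_mem (S.le u hu) hG)]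
      simp only [mul_assoc]
    have m5 : κ * ((X * p) * (X * p)) = κ * (X * X) * p := by
      rw [show X * p * (X * p) = X * (p * X) * p by simp only [mul_assoc], S.comm _ hp _ hX,
        show X * (X * p) * p = X * X * (p * p) by simp only [mul_assoc], hpi']
      simp only [mul_assoc]
    rw [eval_form hB hd s hk hc hκ (hb i)]
    simp only [zf, Side.L, hus i, hbs i, mul_sub, tr_add, tr_sub]
    rw [m1, m3, m5, show S.tr (c * (X * p * (d.gi s * d.gi s * S.E (G * v * G)))) = _ from m4]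
    linarith [m2]
  refine (Finset.sum_le_sum fun i _ => hcell i).trans ?_
  simp only [Finset.sum_add_distrib, Finset.sum_sub_distrib, ← tr_sum, hsumP]
  simp only [← Finset.mul_sum]
  rw [show ∑ i, P.p i * G * P.p i = P.pinch G from rfl,
    show P.pinch G = d.g s + Δ by rw [hΔdef]; abel]
  simp only [mul_add, tr_add]
  have n1 : S.tr (u * G * k * G * u * d.g s) = S.tr (k * W d s (u * d.g s * u)) := by
    have hgM := S.le _ hg
    have hmid : u * d.g s * u ∈ S.M := mul_mem (mul_mem (S.le u hu) hgM) (S.le u hu)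
    rw [W, tr_E hB (mul_mem (mul_mem hG hmid) hG) hk,
      show u * G * k * G * u * d.g s = (u * G) * (k * G * (u * d.g s)) by simp only [mul_assoc],
      tr_comm hB (mul_mem (S.le u hu) hG) (mul_mem (mul_mem (S.le k hk) hG)
        (mul_mem (S.le u hu) hgM))]
    simp only [mul_assoc]
  have n2 : S.tr (u * G * c' * d.g s) = S.tr (c * (X * u)) := by
    rw [show u * G * c' * d.g s = (u * G) * (c' * d.g s) by simp only [mul_assoc],
      tr_comm hB (mul_mem (S.le u hu) hG) (S.le _ (mul_mem hc' hg)),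
      show c' * d.g s * (u * G) = c' * d.g s * u * G by simp only [mul_assoc],
      ← tr_E hB hG (mul_mem (mul_mem hc' hg) hu)]
    congr 1
    refine eq_of_ev (mul_mem (mul_mem (mul_mem hc' hg) hu) (hB.E_mem _ hG))
      (mul_mem hc (mul_mem hX hu)) fun φ => ?_
    change ev S φ (c' * d.g s * u * d.g s) = _
    have hgc : ev S φ (d.g s) ≠ 0 := fun h => by
      have := g_pos hB hd s φ
      simp [h] at this
    rw [ev_mul φ (mul_mem (mul_mem hc' hg) hu) hg, ev_mul φ (mul_mem hc' hg) hu,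
      ev_mul φ hc' hg, hc'def, ev_mul φ (mul_mem hc (mul_mem hgi hgi)) hX,
      ev_mul φ hc (mul_mem hgi hgi), ev_mul φ hgi hgi, ev_mul φ hc (mul_mem hX hu),
      ev_mul φ hX hu, hgiev φ, Complex.ofReal_inv, ← ev_real φ hg hgsa]
    field_simp
  rw [n1, n2]
  have s1 := hsm (u * G * k * G * u)
  have s2 := hsm (u * G * c')
  rw [add_mul]
  linarith

include hB hd in
/-- The sum over the fields is at most the diagonal value. -/
theorem forms_bound (s : Bool) {k c κ D : Op H} (hk : k ∈ S.A) (hc : c ∈ S.A) (hκ : κ ∈ S.A)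
    (hkre : ∀ φ : Chars S, 0 ≤ (ev S φ k).re) (hkim : ∀ φ : Chars S, (ev S φ k).im = 0)
    (hD : D ∈ S.A) (hD0 : 0 ≤ D)
    (hDa : ∀ φ : Chars S, 0 < (ev S φ D).re → 0 ≤ (ev S φ d.a).re)
    {n : ℕ} (f : Fin n → Op H) {ρ : ℝ}
    (h : ∀ P₀ : Part S, ∃ P : Part S, P.Refines P₀ ∧
      ∑ j, (form hB hd s hk hc hκ).eval (f j) ≤
        ∑ i, (form hB hd s hk hc hκ).eval (CFC.sqrt D * P.p i) + ρ) :
    ∑ j, (form hB hd s hk hc hκ).eval (f j) ≤
      S.tr (k * W d s (d.a * d.a * D * d.g s)) -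
        S.tr (k * (d.g s * d.g s * d.g s) * (d.a * d.a * D)) + S.tr (κ * D) + ρ := by
  obtain ⟨hXm, hX0⟩ := sqrt_mem hD hD0
  have hXs := sa_of_nonneg (CFC.sqrt_nonneg D)
  obtain ⟨C, hC⟩ := eval_cells hB hd s hk hc hκ hkre hkim hXm hXs fun φ => by
    rcases (re_nonneg hD hD0 φ).eq_or_lt' with h0 | h0
    · have := sqrt_mul_self_re hD hD0 φ
      rw [h0] at this
      rw [pow_eq_zero_iff two_ne_zero |>.1 this, zero_mul]
    · exact mul_nonneg (hX0 φ) (hDa φ h0)
  have hsq := CFC.sqrt_mul_sqrt_self D hD0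
  have hg := (g_facts hB hd s).1
  have e1 : d.a * CFC.sqrt D * (d.a * CFC.sqrt D) = d.a * d.a * D := by
    calc d.a * CFC.sqrt D * (d.a * CFC.sqrt D) = d.a * (CFC.sqrt D * d.a) * CFC.sqrt D := by
          simp only [mul_assoc]
      _ = d.a * d.a * (CFC.sqrt D * CFC.sqrt D) := by
          rw [S.comm _ hXm _ hd.a_mem]; simp only [mul_assoc]
      _ = d.a * d.a * D := by rw [hsq]
  have e2 : d.a * CFC.sqrt D * d.g s * (d.a * CFC.sqrt D) = d.a * d.a * D * d.g s := by
    rw [mul_assoc (d.a * CFC.sqrt D), S.comm _ hg _ (mul_mem hd.a_mem hXm), ← mul_assoc, e1]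
  refine le_of_forall_pos_le_add fun δ hδ => ?_
  obtain ⟨P₀, hP₀⟩ := hC (δ / (|C| + 1)) (div_pos hδ (by positivity))
  obtain ⟨P, hP, hle⟩ := h P₀
  have h1 := hP₀ P hP
  rw [e1, e2, hsq] at h1
  have h2 : C * (δ / (|C| + 1)) ≤ δ := by
    rw [mul_div_assoc', div_le_iff₀ (by positivity)]
    nlinarith [le_abs_self C]
  linarith

end Dr

end Vale.Agent.P078.Tr
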